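import Vale.Agent.Lib.Helper9.SmallLP

namespace Vale.Agent.Results.P302.SmallLP

open Vale.Agent.Lib.Helper9.BinPack

/-- The modified integer round-up inequality `OPT(I) ≤ ⌈LP(I)⌉ + 1` for bin packing holds for
every instance `I` (a finite list of rational sizes, each positive and at most `1`) whose Gilmore-Gomory
configuration LP value is at most `3`, and for every instance that can be packed into `5`
bins. Hence any counterexample to the conjecture has `LP(I) > 3` and `OPT(I) ≥ 6`. -/
theorem result (a : List ℚ) (ha : ∀ x ∈ a, 0 < x ∧ x ≤ 1)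
    (h : lpValue a ≤ 3 ∨ opt a ≤ 5) : (opt a : ℤ) ≤ ⌈lpValue a⌉ + 1 :=
  mirup_small ha h

end Vale.Agent.Results.P302.SmallLP
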